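import Vale.Agent.P139Z.OBase.Ex

/-! Uniqueness and continuous dependence. -/

open Set Filter Topology MeasureTheory Complex
open scoped NNReal ENNReal ComplexConjugate ContDiff

namespace Vale.Agent.P139Z.OBase

theorem stab1 {a : ℝ} (ha : 0 < a) (b K : ℝ) :
    ∃ C : ℝ, 0 < C ∧ ∀ (A : ℂ) (B : ℕ) (F : ℝ → ℂ) (s : ℝ → ℝ), ‖A‖ ≤ K → (B : ℝ) ≤ K →
      (∀ ρ ∈ Icc a b, ContDiffAt ℝ 2 F ρ) → ContinuousOn s (Icc a b) → (∀ ρ ∈ Icc a b, 0 ≤ s ρ) →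
      (∀ ρ ∈ Icc a b, ‖Mop A B F ρ‖ ≤ K * ‖F ρ‖ + s ρ) →
      ∀ ρ₀ ∈ Icc a b, ∀ ρ ∈ Icc a b, ‖F ρ‖ + ‖deriv F ρ‖ ≤
        C * (‖F ρ₀‖ + ‖deriv F ρ₀‖ + ∫ x in a..b, s x) := by
  obtain ⟨C, hC, h⟩ := stab2 ha b K
  refine ⟨C, hC, fun A B F s hA hB hF hs hs0 hM ρ₀ hρ₀ ρ hρ => ?_⟩
  have h1 := h A A B B F (fun _ => 0) s hA hA hB hB hF (fun _ _ => contDiffAt_const) hs hs0
    (fun t ht => by simpa [Mop, OCalc.iter2] using hM t ht) ρ₀ hρ₀ ρ hρ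
  simpa using h1

theorem deriv_sub' {F H : ℝ → ℂ} {ρ : ℝ} (hF : ContDiffAt ℝ 2 F ρ) (hH : ContDiffAt ℝ 2 H ρ) :
    deriv (fun x => F x - H x) ρ = deriv F ρ - deriv H ρ :=
  ((OCalc.hd1 hF).sub (OCalc.hd1 hH)).deriv

theorem uniq_gen {A : ℂ} {B : ℕ} {a b K : ℝ} (ha : 0 < a) (hK : 0 ≤ K) {F H : ℝ → ℂ}
    (hF : ∀ ρ ∈ Icc a b, ContDiffAt ℝ 2 F ρ) (hH : ∀ ρ ∈ Icc a b, ContDiffAt ℝ 2 H ρ)
    (h : ∀ ρ ∈ Icc a b, ‖Mop A B F ρ - Mop A B H ρ‖ ≤ K * ‖F ρ - H ρ‖) {ρ₀ ρ : ℝ}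
    (hρ₀ : ρ₀ ∈ Icc a b) (hρ : ρ ∈ Icc a b) (h₀ : F ρ₀ = H ρ₀) (h₁ : deriv F ρ₀ = deriv H ρ₀) :
    F ρ = H ρ := by
  obtain ⟨C, -, hC⟩ := stab1 ha b (K + ‖A‖ + B)
  have hA := norm_nonneg A
  have hB : (0 : ℝ) ≤ B := Nat.cast_nonneg B
  have h2 := hC A B (fun x => F x - H x) (fun _ => 0) (by linarith) (by linarith)
    (fun t ht => (hF t ht).sub (hH t ht)) continuousOn_const (fun _ _ => le_rfl)
    (fun t ht => by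
      rw [OCalc.Mop_sub A B (hF t ht) (hH t ht), add_zero]
      exact (h t ht).trans (mul_le_mul_of_nonneg_right (by linarith) (norm_nonneg _)))
    ρ₀ hρ₀ ρ hρ
  rw [deriv_sub' (hF ρ₀ hρ₀) (hH ρ₀ hρ₀), h₀, h₁] at h2
  simp only [sub_self, norm_zero, intervalIntegral.integral_zero, add_zero, mul_zero] at h2
  have h3 : ‖F ρ - H ρ‖ ≤ 0 := by linarith [norm_nonneg (deriv (fun x => F x - H x) ρ)]
  exact sub_eq_zero.1 (norm_le_zero_iff.1 h3)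

theorem free_unique {A : ℂ} {B : ℕ} {F H : ℝ → ℂ} (hF : ContDiffOn ℝ 2 F (Ioi 0))
    (hH : ContDiffOn ℝ 2 H (Ioi 0)) (h : ∀ ρ : ℝ, 0 < ρ → Mop A B F ρ = Mop A B H ρ) {ρ₀ : ℝ}
    (hρ : 0 < ρ₀) (h₀ : F ρ₀ = H ρ₀) (h₁ : deriv F ρ₀ = deriv H ρ₀) : EqOn F H (Ioi 0) := by
  intro ρ hρ'
  have ha : 0 < min ρ ρ₀ := lt_min hρ' hρ
  have hm : ∀ t ∈ Icc (min ρ ρ₀) (max ρ ρ₀), 0 < t := fun t ht => ha.trans_le ht.1
  exact uniq_gen (A := A) (B := B) (b := max ρ ρ₀) ha le_rfl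
    (fun t ht => hF.contDiffAt (Ioi_mem_nhds (hm t ht)))
    (fun t ht => hH.contDiffAt (Ioi_mem_nhds (hm t ht)))
    (fun t ht => by rw [h t (hm t ht)]; simp)
    ⟨min_le_right _ _, le_max_right _ _⟩ ⟨min_le_left _ _, le_max_left _ _⟩ h₀ h₁

theorem nl_lip (m : ℕ) (M : ℝ) : ∃ K : ℝ, 0 ≤ K ∧ ∀ y z : ℂ, ‖y‖ ≤ M → ‖z‖ ≤ M →
    ‖(‖y‖ : ℂ) ^ (2 * m) * y - (‖z‖ : ℂ) ^ (2 * m) * z‖ ≤ K * ‖y - z‖ := by
  have hc : ContDiff ℝ 1 fun z : ℂ => (z * conj z) ^ m * z :=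
    ((contDiff_id.mul Complex.conjCLE.contDiff).pow m).mul contDiff_id
  obtain ⟨K, hK⟩ := hc.locallyLipschitz.locallyLipschitzOn.exists_lipschitzOnWith_of_compact
    (isCompact_closedBall (0 : ℂ) M)
  have e : ∀ z : ℂ, (‖z‖ : ℂ) ^ (2 * m) * z = (z * conj z) ^ m * z := by
    intro z
    rw [Complex.mul_conj, pow_mul, Complex.normSq_eq_norm_sq]
    push_cast
    rfl
  refine ⟨K, K.2, fun y z hy hz => ?_⟩
  rw [e, e, ← dist_eq_norm, ← dist_eq_norm]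
  exact hK.dist_le_mul y (mem_closedBall_zero_iff.2 hy) z (mem_closedBall_zero_iff.2 hz)

theorem semi_unique {A : ℂ} {B m : ℕ} {a b : ℝ} (ha : 0 ≤ a) {F H : ℝ → ℂ}
    (hF : ContDiffOn ℝ 2 F (Ioo a b)) (hH : ContDiffOn ℝ 2 H (Ioo a b))
    (eF : ∀ ρ ∈ Ioo a b, Mop A B F ρ = (‖F ρ‖ : ℂ) ^ (2 * m) * F ρ)
    (eH : ∀ ρ ∈ Ioo a b, Mop A B H ρ = (‖H ρ‖ : ℂ) ^ (2 * m) * H ρ) {ρ₀ : ℝ} (hρ : ρ₀ ∈ Ioo a b)
    (h₀ : F ρ₀ = H ρ₀) (h₁ : deriv F ρ₀ = deriv H ρ₀) : EqOn F H (Ioo a b) := by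
  intro ρ hρ'
  have hsub : Icc (min ρ ρ₀) (max ρ ρ₀) ⊆ Ioo a b :=
    Icc_subset_Ioo (lt_min hρ'.1 hρ.1) (max_lt hρ'.2 hρ.2)
  obtain ⟨M₁, hM₁⟩ := isCompact_Icc.exists_bound_of_continuousOn (hF.continuousOn.mono hsub)
  obtain ⟨M₂, hM₂⟩ := isCompact_Icc.exists_bound_of_continuousOn (hH.continuousOn.mono hsub)
  obtain ⟨K, hK, hL⟩ := nl_lip m (max M₁ M₂)
  exact uniq_gen (A := A) (B := B) (b := max ρ ρ₀) (ha.trans_lt (lt_min hρ'.1 hρ.1)) hK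
    (fun t ht => hF.contDiffAt (isOpen_Ioo.mem_nhds (hsub ht)))
    (fun t ht => hH.contDiffAt (isOpen_Ioo.mem_nhds (hsub ht)))
    (fun t ht => by
      rw [eF t (hsub ht), eH t (hsub ht)]
      exact hL _ _ ((hM₁ t ht).trans (le_max_left _ _)) ((hM₂ t ht).trans (le_max_right _ _)))
    ⟨min_le_right _ _, le_max_right _ _⟩ ⟨min_le_left _ _, le_max_left _ _⟩ h₀ h₁

theorem free_tendsto {X : Type*} [MetricSpace X] {s : Set X} {A : X → ℂ} (hA : ContinuousOn A s)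
    (B : ℕ) {F : X → ℝ → ℂ} (hF : ∀ p ∈ s, ContDiffOn ℝ 2 (F p) (Ioi 0))
    (e : ∀ p ∈ s, ∀ ρ : ℝ, 0 < ρ → Mop (A p) B (F p) ρ = 0) {T : X → ℝ} (hT : ContinuousOn T s)
    (hT' : ∀ p ∈ s, 0 < T p) (h₀ : ContinuousOn (fun p => F p (T p)) s)
    (h₁ : ContinuousOn (fun p => deriv (F p) (T p)) s) {p₀ : X} (hp₀ : p₀ ∈ s) {ρ₁ : ℝ}
    (hρ₁ : 0 < ρ₁) :
    Tendsto (fun q : X × ℝ => ‖F q.1 q.2 - F p₀ q.2‖ + ‖deriv (F q.1) q.2 - deriv (F p₀) q.2‖)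
      (𝓝[s ×ˢ Ioi 0] (p₀, ρ₁)) (𝓝 0) := by
  have hT0 := hT' p₀ hp₀
  set a : ℝ := min (T p₀) ρ₁ / 2 with ha
  set b : ℝ := max (T p₀) ρ₁ + 1 with hb
  have hmin : 0 < min (T p₀) ρ₁ := lt_min hT0 hρ₁
  have ha0 : 0 < a := by positivity
  have hTa : a < T p₀ := by linarith [min_le_left (T p₀) ρ₁]
  have hTb : T p₀ < b := by linarith [le_max_left (T p₀) ρ₁]
  have hρa : a < ρ₁ := by linarith [min_le_right (T p₀) ρ₁]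
  have hρb : ρ₁ < b := by linarith [le_max_right (T p₀) ρ₁]
  have hm : ∀ t ∈ Icc a b, 0 < t := fun t ht => ha0.trans_le ht.1
  have hc : ∀ p ∈ s, ∀ t : ℝ, 0 < t → ContDiffAt ℝ 2 (F p) t := fun p hp t ht =>
    (hF p hp).contDiffAt (Ioi_mem_nhds ht)
  obtain ⟨M, hM⟩ := (isCompact_Icc (a := a) (b := b)).exists_bound_of_continuousOn
    ((hF p₀ hp₀).continuousOn.mono hm)
  have hM0 : 0 ≤ M := (norm_nonneg _).trans (hM ρ₁ ⟨hρa.le, hρb.le⟩)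
  obtain ⟨C, hC, hS⟩ := stab1 ha0 b (‖A p₀‖ + 1 + B)
  have hfst : Tendsto Prod.fst (𝓝[s ×ˢ Ioi 0] (p₀, ρ₁)) (𝓝[s] p₀) :=
    (continuous_fst.continuousWithinAt (x := (p₀, ρ₁))).tendsto_nhdsWithin fun q hq => hq.1
  have hsnd : Tendsto Prod.snd (𝓝[s ×ˢ Ioi 0] (p₀, ρ₁)) (𝓝 ρ₁) :=
    (continuous_snd.continuousWithinAt (x := (p₀, ρ₁))).tendsto
  have hTt : Tendsto T (𝓝[s] p₀) (𝓝 (T p₀)) := hT p₀ hp₀
  have hAt : Tendsto A (𝓝[s] p₀) (𝓝 (A p₀)) := hA p₀ hp₀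
  have hlim : Tendsto (fun p => C * (‖F p (T p) - F p₀ (T p)‖
      + ‖deriv (F p) (T p) - deriv (F p₀) (T p)‖ + (b - a) * (‖A p - A p₀‖ * M)))
      (𝓝[s] p₀) (𝓝 0) := by
    have t1 := ((h₀ p₀ hp₀).tendsto.sub
      ((OCalc.hd1 (hc p₀ hp₀ _ hT0)).continuousAt.tendsto.comp hTt)).norm
    have t2 := ((h₁ p₀ hp₀).tendsto.sub
      ((OCalc.hd2 (hc p₀ hp₀ _ hT0)).continuousAt.tendsto.comp hTt)).norm
    have t3 := (((hAt.sub_const (A p₀)).norm.mul_const M).const_mul (b - a))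
    simpa using ((t1.add t2).add t3).const_mul C
  refine squeeze_zero' (Eventually.of_forall fun q => by positivity) ?_ (hlim.comp hfst)
  filter_upwards [hfst.eventually (hTt.eventually (Icc_mem_nhds hTa hTb)),
    hfst.eventually (hAt.norm.eventually (Iio_mem_nhds (lt_add_one ‖A p₀‖))),
    hsnd.eventually (Icc_mem_nhds hρa hρb), self_mem_nhdsWithin] with q q1 q2 q3 q4
  have hq : q.1 ∈ s := q4.1
  have hB : (0 : ℝ) ≤ B := Nat.cast_nonneg B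
  have q2' : ‖A q.1‖ < ‖A p₀‖ + 1 := q2
  have h := hS (A q.1) B (fun x => F q.1 x - F p₀ x) (fun _ => ‖A q.1 - A p₀‖ * M)
    (by linarith) (by linarith [norm_nonneg (A p₀)])
    (fun t ht => (hc _ hq t (hm t ht)).sub (hc _ hp₀ t (hm t ht))) continuousOn_const
    (fun _ _ => by positivity)
    (fun t ht => by
      rw [OCalc.Mop_sub _ B (hc _ hq t (hm t ht)) (hc _ hp₀ t (hm t ht)), e _ hq t (hm t ht)]
      have e1 : 0 - Mop (A q.1) B (F p₀) t = -(I * (A q.1 - A p₀) * F p₀ t) := by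
        have e2 := e _ hp₀ t (hm t ht)
        simp only [Mop] at e2 ⊢
        linear_combination -e2
      rw [e1, norm_neg, norm_mul, norm_mul, Complex.norm_I, one_mul]
      have := mul_le_mul_of_nonneg_left (hM t ht) (norm_nonneg (A q.1 - A p₀))
      have : 0 ≤ (‖A p₀‖ + 1 + B) * ‖F q.1 t - F p₀ t‖ := by positivity
      linarith) (T q.1) q1 q.2 q3
  rw [deriv_sub' (hc _ hq _ (hm _ q3)) (hc _ hp₀ _ (hm _ q3)),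
    deriv_sub' (hc _ hq _ (hm _ q1)) (hc _ hp₀ _ (hm _ q1)), intervalIntegral.integral_const,
    smul_eq_mul] at h
  exact h

theorem free_cont {X : Type*} [MetricSpace X] {s : Set X} {A : X → ℂ} (hA : ContinuousOn A s)
    (B : ℕ) {F : X → ℝ → ℂ} (hF : ∀ p ∈ s, ContDiffOn ℝ 2 (F p) (Ioi 0))
    (e : ∀ p ∈ s, ∀ ρ : ℝ, 0 < ρ → Mop (A p) B (F p) ρ = 0) {T : X → ℝ} (hT : ContinuousOn T s)
    (hT' : ∀ p ∈ s, 0 < T p) (h₀ : ContinuousOn (fun p => F p (T p)) s)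
    (h₁ : ContinuousOn (fun p => deriv (F p) (T p)) s) :
    ContinuousOn (fun q : X × ℝ => F q.1 q.2) (s ×ˢ Ioi 0) ∧
      ContinuousOn (fun q : X × ℝ => deriv (F q.1) q.2) (s ×ˢ Ioi 0) := by
  have key : ∀ G : X → ℝ → ℂ, ∀ p₀ ρ₁, ContinuousAt (G p₀) ρ₁ →
      Tendsto (fun q : X × ℝ => ‖G q.1 q.2 - G p₀ q.2‖) (𝓝[s ×ˢ Ioi 0] (p₀, ρ₁)) (𝓝 0) →
      ContinuousWithinAt (fun q : X × ℝ => G q.1 q.2) (s ×ˢ Ioi 0) (p₀, ρ₁) := by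
    intro G p₀ ρ₁ hG h
    have hsnd : Tendsto Prod.snd (𝓝[s ×ˢ Ioi 0] (p₀, ρ₁)) (𝓝 ρ₁) :=
      (continuous_snd.continuousWithinAt (x := (p₀, ρ₁))).tendsto
    have h2 := (tendsto_zero_iff_norm_tendsto_zero.2 h).add (hG.tendsto.comp hsnd)
    simpa [ContinuousWithinAt] using h2
  constructor
  · rintro ⟨p₀, ρ₁⟩ ⟨hp₀, hρ₁⟩
    refine key F p₀ ρ₁ ((hF p₀ hp₀).contDiffAt (Ioi_mem_nhds hρ₁)).continuousAt ?_
    refine squeeze_zero (fun q => norm_nonneg _) (fun q => ?_)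
      (free_tendsto hA B hF e hT hT' h₀ h₁ hp₀ hρ₁)
    exact le_add_of_nonneg_right (norm_nonneg _)
  · rintro ⟨p₀, ρ₁⟩ ⟨hp₀, hρ₁⟩
    refine key (fun p => deriv (F p)) p₀ ρ₁
      (OCalc.hd2 ((hF p₀ hp₀).contDiffAt (Ioi_mem_nhds hρ₁))).continuousAt ?_
    refine squeeze_zero (fun q => norm_nonneg _) (fun q => ?_)
      (free_tendsto hA B hF e hT hT' h₀ h₁ hp₀ hρ₁)
    exact le_add_of_nonneg_left (norm_nonneg _)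

end Vale.Agent.P139Z.OBase
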