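import Vale.Agent.P139Z.OCalc.Mop

/-! Gronwall estimates with an integrable remainder. -/

open Set Filter Topology MeasureTheory Complex
open scoped NNReal ENNReal ComplexConjugate ContDiff

namespace Vale.Agent.P139Z.OBase

variable {E : Type*} [NormedAddCommGroup E] [NormedSpace ℝ E]

theorem gron_cont {X X' : ℝ → E} {s : ℝ → ℝ} {a b K : ℝ} (hK : 0 ≤ K) (hab : a ≤ b)
    (hX : ∀ t ∈ Icc a b, HasDerivAt X (X' t) t) (hs : Continuous s) (hs0 : ∀ t, 0 ≤ s t)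
    (hb : ∀ t ∈ Icc a b, ‖X' t‖ ≤ K * ‖X t‖ + s t) :
    ‖X b‖ ≤ Real.exp (K * (b - a)) * (‖X a‖ + ∫ x in a..b, s x) := by
  have key : ∀ ε : ℝ, 0 < ε →
      ‖X b‖ ≤ Real.exp (K * (b - a)) * (‖X a‖ + (∫ x in a..b, s x) + ε * (b - a)) := by
    intro ε hε
    have hB : ∀ x : ℝ, HasDerivAt
        (fun x => Real.exp (K * (x - a)) * (‖X a‖ + (∫ y in a..x, s y) + ε * (x - a)))
        (K * (Real.exp (K * (x - a)) * (‖X a‖ + (∫ y in a..x, s y) + ε * (x - a)))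
          + Real.exp (K * (x - a)) * (s x + ε)) x := by
      intro x
      have h1 : HasDerivAt (fun x => Real.exp (K * (x - a))) (Real.exp (K * (x - a)) * K) x := by
        simpa using (((hasDerivAt_id x).sub_const a).const_mul K).exp
      have h2 : HasDerivAt (fun x => ‖X a‖ + (∫ y in a..x, s y) + ε * (x - a)) (s x + ε) x := by
        have h3 := (hs.integral_hasStrictDerivAt a x).hasDerivAt
        have h4 : HasDerivAt (fun x => ε * (x - a)) ε x := by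
          simpa using ((hasDerivAt_id x).sub_const a).const_mul ε
        exact (h3.const_add ‖X a‖).add h4
      refine (h1.mul h2).congr_deriv ?_
      ring
    refine image_norm_le_of_norm_deriv_right_lt_deriv_boundary' (f' := X')
      (fun t ht => (hX t ht).continuousAt.continuousWithinAt)
      (fun t ht => (hX t (Ico_subset_Icc_self ht)).hasDerivWithinAt)
      (B := fun x => Real.exp (K * (x - a)) * (‖X a‖ + (∫ y in a..x, s y) + ε * (x - a)))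
      (by simp) (fun x _ => (hB x).continuousAt.continuousWithinAt)
      (fun x _ => (hB x).hasDerivWithinAt) ?_ (right_mem_Icc.2 hab)
    intro x hx hxe
    have h1 := hb x (Ico_subset_Icc_self hx)
    have h2 : 1 ≤ Real.exp (K * (x - a)) :=
      Real.one_le_exp (mul_nonneg hK (sub_nonneg.2 hx.1))
    have h3 := hs0 x
    rw [← hxe]
    nlinarith
  refine le_of_forall_pos_le_add fun δ hδ => ?_
  have hp : 0 < Real.exp (K * (b - a)) * (b - a) + 1 := by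
    have := mul_nonneg (Real.exp_pos (K * (b - a))).le (sub_nonneg.2 hab)
    linarith
  have h := key (δ / (Real.exp (K * (b - a)) * (b - a) + 1)) (div_pos hδ hp)
  have h2 : Real.exp (K * (b - a)) * (δ / (Real.exp (K * (b - a)) * (b - a) + 1) * (b - a))
      ≤ δ := by
    rw [show Real.exp (K * (b - a)) * (δ / (Real.exp (K * (b - a)) * (b - a) + 1) * (b - a))
      = δ * (Real.exp (K * (b - a)) * (b - a)) / (Real.exp (K * (b - a)) * (b - a) + 1) by ring,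
      div_le_iff₀ hp]
    nlinarith
  rw [mul_add] at h
  linarith

theorem gron_fwd {X X' : ℝ → E} {s : ℝ → ℝ} {a b K : ℝ} (hK : 0 ≤ K) (hab : a ≤ b)
    (hX : ∀ t ∈ Icc a b, HasDerivAt X (X' t) t) (hs : ContinuousOn s (Icc a b))
    (hs0 : ∀ t ∈ Icc a b, 0 ≤ s t) (hb : ∀ t ∈ Icc a b, ‖X' t‖ ≤ K * ‖X t‖ + s t) :
    ‖X b‖ ≤ Real.exp (K * (b - a)) * (‖X a‖ + ∫ x in a..b, s x) := by
  have hc : Continuous fun x => s (projIcc a b hab x) :=
    hs.comp_continuous (continuous_subtype_val.comp continuous_projIcc)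
      fun x => (projIcc a b hab x).2
  have he : ∀ x ∈ Icc a b, s (projIcc a b hab x) = s x := by
    intro x hx
    rw [projIcc_of_mem hab hx]
  have h := gron_cont hK hab hX hc (fun t => hs0 _ (projIcc a b hab t).2)
    (fun t ht => by rw [he t ht]; exact hb t ht)
  rwa [intervalIntegral.integral_congr (g := s) (by rw [uIcc_of_le hab]; exact he)] at h

theorem gron {X X' : ℝ → E} {s : ℝ → ℝ} {a b K : ℝ} (hK : 0 ≤ K)
    (hX : ∀ t ∈ Icc a b, HasDerivAt X (X' t) t) (hs : ContinuousOn s (Icc a b))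
    (hs0 : ∀ t ∈ Icc a b, 0 ≤ s t) (hb : ∀ t ∈ Icc a b, ‖X' t‖ ≤ K * ‖X t‖ + s t)
    {u v : ℝ} (hu : u ∈ Icc a b) (hv : v ∈ Icc a b) :
    ‖X v‖ ≤ Real.exp (K * (b - a)) * (‖X u‖ + ∫ x in a..b, s x) := by
  have hab : a ≤ b := hu.1.trans hu.2
  have hint : ∀ c d : ℝ, a ≤ c → c ≤ d → d ≤ b → ∫ x in c..d, s x ≤ ∫ x in a..b, s x := by
    intro c d h1 h2 h3
    refine intervalIntegral.integral_mono_interval h1 h2 h3 ?_ (hs.intervalIntegrable_of_Icc hab)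
    exact (ae_restrict_iff' measurableSet_Ioc).2
      (Eventually.of_forall fun x hx => hs0 x (Ioc_subset_Icc_self hx))
  have hI : 0 ≤ ∫ x in a..b, s x := intervalIntegral.integral_nonneg hab hs0
  rcases le_total u v with huv | huv
  · have hsub : Icc u v ⊆ Icc a b := Icc_subset_Icc hu.1 hv.2
    have h := gron_fwd hK huv (fun t ht => hX t (hsub ht)) (hs.mono hsub)
      (fun t ht => hs0 t (hsub ht)) (fun t ht => hb t (hsub ht))
    refine h.trans (mul_le_mul ?_ ?_ ?_ (Real.exp_pos _).le)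
    · exact Real.exp_le_exp.2 (mul_le_mul_of_nonneg_left (by linarith [hu.1, hv.2]) hK)
    · linarith [hint u v hu.1 huv hv.2]
    · exact add_nonneg (norm_nonneg _)
        (intervalIntegral.integral_nonneg huv fun t ht => hs0 t (hsub ht))
  · have hsub : ∀ t ∈ Icc (-u) (-v), -t ∈ Icc a b := fun t ht =>
      ⟨by linarith [ht.2, hv.1], by linarith [ht.1, hu.2]⟩
    have h := gron_fwd (X := fun t => X (-t)) (X' := fun t => -X' (-t)) (s := fun t => s (-t))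
      (a := -u) (b := -v) hK (by linarith)
      (fun t ht => by
        have h := (hX (-t) (hsub t ht)).scomp t (hasDerivAt_neg t)
        rw [neg_one_smul] at h
        exact h)
      (hs.comp continuous_neg.continuousOn hsub)
      (fun t ht => hs0 _ (hsub t ht)) (fun t ht => by simpa using hb _ (hsub t ht))
    rw [intervalIntegral.integral_comp_neg] at h
    simp only [neg_neg] at h
    refine h.trans (mul_le_mul ?_ ?_ ?_ (Real.exp_pos _).le)
    · exact Real.exp_le_exp.2 (mul_le_mul_of_nonneg_left (by linarith [hu.2, hv.1]) hK)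
    · linarith [hint v u hv.1 huv hu.2]
    · exact add_nonneg (norm_nonneg _) (intervalIntegral.integral_nonneg huv fun t ht =>
        hs0 t ⟨hv.1.trans ht.1, ht.2.trans hu.2⟩)

theorem d2_eq {A : ℂ} {B : ℕ} {F : ℝ → ℂ} {ρ : ℝ} (hρ : 0 < ρ) :
    iteratedDeriv 2 F ρ
      = (Mop A B F ρ - (4 * (B : ℂ) + I * ρ) * deriv F ρ - I * A * F ρ) / (4 * ρ) := by
  have h : (ρ : ℂ) ≠ 0 := by exact_mod_cast hρ.ne'
  simp only [Mop]
  field_simp
  ring

theorem d2_le {A : ℂ} {B : ℕ} {F : ℝ → ℂ} {a b K ρ M : ℝ} (ha : 0 < a) (hρ : ρ ∈ Icc a b)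
    (hA : ‖A‖ ≤ K) (hB : (B : ℝ) ≤ K) (h0 : ‖F ρ‖ ≤ M) (h1 : ‖deriv F ρ‖ ≤ M) :
    ‖iteratedDeriv 2 F ρ‖ ≤ (‖Mop A B F ρ‖ + (5 * K + b) * M) / (4 * a) := by
  have hρ0 : 0 < ρ := ha.trans_le hρ.1
  have hK : 0 ≤ K := (norm_nonneg _).trans hA
  have hM : 0 ≤ M := (norm_nonneg _).trans h0
  rw [d2_eq (A := A) (B := B) hρ0, norm_div]
  have e4 : ‖(4 * ρ : ℂ)‖ = 4 * ρ := by
    rw [norm_mul, Complex.norm_real, Real.norm_of_nonneg hρ0.le]; simp
  rw [e4]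
  have hc : ‖4 * (B : ℂ) + I * ρ‖ ≤ 4 * K + b := by
    refine (norm_add_le _ _).trans (add_le_add ?_ ?_)
    · rw [norm_mul, Complex.norm_natCast]
      have : ‖(4 : ℂ)‖ = 4 := by simp
      rw [this]; linarith
    · rw [norm_mul, Complex.norm_I, Complex.norm_real, Real.norm_of_nonneg hρ0.le, one_mul]
      exact hρ.2
  have h2 : ‖(4 * (B : ℂ) + I * ρ) * deriv F ρ‖ ≤ (4 * K + b) * M := by
    rw [norm_mul]
    exact mul_le_mul hc h1 (norm_nonneg _) ((norm_nonneg _).trans hc)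
  have h3 : ‖I * A * F ρ‖ ≤ K * M := by
    rw [norm_mul, norm_mul, Complex.norm_I, one_mul]
    exact mul_le_mul hA h0 (norm_nonneg _) hK
  have h4 : ‖Mop A B F ρ - (4 * (B : ℂ) + I * ρ) * deriv F ρ - I * A * F ρ‖
      ≤ ‖Mop A B F ρ‖ + (5 * K + b) * M := by
    refine (norm_sub_le _ _).trans ?_
    have := norm_sub_le (Mop A B F ρ) ((4 * (B : ℂ) + I * ρ) * deriv F ρ)
    linarith
  exact div_le_div₀ ((norm_nonneg _).trans h4) h4 (by linarith) (by linarith [hρ.1])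

theorem stab2 {a : ℝ} (ha : 0 < a) (b K : ℝ) :
    ∃ C : ℝ, 0 < C ∧ ∀ (A A' : ℂ) (B B' : ℕ) (F H : ℝ → ℂ) (s : ℝ → ℝ), ‖A‖ ≤ K → ‖A'‖ ≤ K →
      (B : ℝ) ≤ K → (B' : ℝ) ≤ K → (∀ ρ ∈ Icc a b, ContDiffAt ℝ 2 F ρ) →
      (∀ ρ ∈ Icc a b, ContDiffAt ℝ 2 H ρ) → ContinuousOn s (Icc a b) → (∀ ρ ∈ Icc a b, 0 ≤ s ρ) →
      (∀ ρ ∈ Icc a b, ‖Mop A B F ρ‖ + ‖Mop A' B' H ρ‖ ≤ K * (‖F ρ‖ + ‖H ρ‖) + s ρ) →
      ∀ ρ₀ ∈ Icc a b, ∀ ρ ∈ Icc a b, ‖F ρ‖ + ‖deriv F ρ‖ + ‖H ρ‖ + ‖deriv H ρ‖ ≤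
        C * (‖F ρ₀‖ + ‖deriv F ρ₀‖ + ‖H ρ₀‖ + ‖deriv H ρ₀‖ + ∫ x in a..b, s x) := by
  refine ⟨4 * Real.exp ((1 + (7 * K + b) / (4 * a)) * (b - a)) * (1 + 1 / (4 * a)),
    by positivity, ?_⟩
  intro A A' B B' F H s hA hA' hB hB' hF hH hs hs0 hM ρ₀ hρ₀ ρ hρ
  have hK : 0 ≤ K := (norm_nonneg _).trans hA
  have hab : a ≤ b := hρ.1.trans hρ.2
  have hb : 0 < b := ha.trans_le hab
  set X : ℝ → (ℂ × ℂ) × (ℂ × ℂ) := fun t => ((F t, deriv F t), (H t, deriv H t)) with hXdef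
  have n1 : ∀ t, ‖F t‖ ≤ ‖X t‖ := fun t => (norm_fst_le (X t).1).trans (norm_fst_le (X t))
  have n2 : ∀ t, ‖deriv F t‖ ≤ ‖X t‖ := fun t => (norm_snd_le (X t).1).trans (norm_fst_le (X t))
  have n3 : ∀ t, ‖H t‖ ≤ ‖X t‖ := fun t => (norm_fst_le (X t).2).trans (norm_snd_le (X t))
  have n4 : ∀ t, ‖deriv H t‖ ≤ ‖X t‖ := fun t => (norm_snd_le (X t).2).trans (norm_snd_le (X t))
  have n5 : ‖X ρ₀‖ ≤ ‖F ρ₀‖ + ‖deriv F ρ₀‖ + ‖H ρ₀‖ + ‖deriv H ρ₀‖ := by
    have := norm_nonneg (F ρ₀)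
    have := norm_nonneg (deriv F ρ₀)
    have := norm_nonneg (H ρ₀)
    have := norm_nonneg (deriv H ρ₀)
    simp only [hXdef, Prod.norm_mk, max_le_iff]
    refine ⟨⟨?_, ?_⟩, ⟨?_, ?_⟩⟩ <;> linarith
  have hK1 : 0 ≤ (7 * K + b) / (4 * a) := by positivity
  have h := gron (X := X) (K := 1 + (7 * K + b) / (4 * a)) (s := fun t => s t / (4 * a))
    (X' := fun t => ((deriv F t, iteratedDeriv 2 F t), (deriv H t, iteratedDeriv 2 H t)))
    (a := a) (b := b) (by linarith)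
    (fun t ht => ((OCalc.hd1 (hF t ht)).prodMk (OCalc.hd2 (hF t ht))).prodMk
      ((OCalc.hd1 (hH t ht)).prodMk (OCalc.hd2 (hH t ht))))
    (hs.div_const _) (fun t ht => div_nonneg (hs0 t ht) (by linarith)) ?_ hρ₀ hρ
  · rw [intervalIntegral.integral_div] at h
    have hI : 0 ≤ ∫ x in a..b, s x := intervalIntegral.integral_nonneg hab hs0
    have hE := Real.exp_pos ((1 + (7 * K + b) / (4 * a)) * (b - a))
    have h4 : 0 < 1 / (4 * a) := by positivity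
    have hS : 0 ≤ ‖F ρ₀‖ + ‖deriv F ρ₀‖ + ‖H ρ₀‖ + ‖deriv H ρ₀‖ := by positivity
    have h5 : ‖X ρ₀‖ + (∫ x in a..b, s x) / (4 * a) ≤ (1 + 1 / (4 * a)) *
        (‖F ρ₀‖ + ‖deriv F ρ₀‖ + ‖H ρ₀‖ + ‖deriv H ρ₀‖ + ∫ x in a..b, s x) := by
      rw [div_eq_mul_one_div]
      nlinarith
    have h6 := h.trans (mul_le_mul_of_nonneg_left h5 hE.le)
    have := n1 ρ
    have := n2 ρ
    have := n3 ρ
    have := n4 ρ
    nlinarith
  · intro t ht
    have hX0 := norm_nonneg (X t)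
    have hst : 0 ≤ s t / (4 * a) := div_nonneg (hs0 t ht) (by linarith)
    have hd : ∀ y : ℝ, y ≤ K * (‖F t‖ + ‖H t‖) + s t → (y + (5 * K + b) * ‖X t‖) / (4 * a)
        ≤ (1 + (7 * K + b) / (4 * a)) * ‖X t‖ + s t / (4 * a) := by
      intro y hy
      have h1 : y + (5 * K + b) * ‖X t‖ ≤ (7 * K + b) * ‖X t‖ + s t := by
        have := mul_le_mul_of_nonneg_left (add_le_add (n1 t) (n3 t)) hK
        linarith
      have h2 := div_le_div_of_nonneg_right h1 (by linarith : 0 ≤ 4 * a)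
      rw [add_div ((7 * K + b) * ‖X t‖), mul_div_right_comm] at h2
      linarith
    have hl : ∀ y : ℝ, y ≤ ‖X t‖ → y ≤ (1 + (7 * K + b) / (4 * a)) * ‖X t‖ + s t / (4 * a) := by
      intro y hy
      nlinarith [mul_nonneg hK1 hX0]
    simp only [Prod.norm_mk, max_le_iff]
    refine ⟨⟨hl _ (n2 t), ?_⟩, ⟨hl _ (n4 t), ?_⟩⟩
    · exact (d2_le ha ht hA hB (n1 t) (n2 t)).trans
        (hd _ (by linarith [hM t ht, norm_nonneg (Mop A' B' H t)]))
    · exact (d2_le ha ht hA' hB' (n3 t) (n4 t)).trans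
        (hd _ (by linarith [hM t ht, norm_nonneg (Mop A B F t)]))

end Vale.Agent.P139Z.OBase
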