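import Vale.Agent.P139Z.OBase.Pic
import Vale.Agent.P139Z.OBase.Gron

/-! Existence and regularity for the second-order equation. -/

open Set Filter Topology MeasureTheory Complex
open scoped NNReal ENNReal ComplexConjugate ContDiff

namespace Vale.Agent.P139Z.OBase

theorem c2_of_deriv {F F1 F2 : ℝ → ℂ} {s : Set ℝ} (hs : IsOpen s)
    (h1 : ∀ ρ ∈ s, HasDerivAt F (F1 ρ) ρ) (h2 : ∀ ρ ∈ s, HasDerivAt F1 (F2 ρ) ρ)
    (h3 : ContinuousOn F2 s) :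
    ContDiffOn ℝ 2 F s ∧ ∀ ρ ∈ s, deriv F ρ = F1 ρ ∧ iteratedDeriv 2 F ρ = F2 ρ := by
  have e1 : ∀ ρ ∈ s, deriv F ρ = F1 ρ := fun ρ hρ => (h1 ρ hρ).deriv
  have e2 : ∀ ρ ∈ s, deriv F1 ρ = F2 ρ := fun ρ hρ => (h2 ρ hρ).deriv
  have c1 : ContDiffOn ℝ (0 + 1) F1 s := by
    rw [contDiffOn_succ_iff_deriv_of_isOpen hs]
    refine ⟨fun ρ hρ => (h2 ρ hρ).differentiableAt.differentiableWithinAt, by simp, ?_⟩
    exact (contDiffOn_zero.2 h3).congr e2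
  have c2 : ContDiffOn ℝ (1 + 1) F s := by
    rw [contDiffOn_succ_iff_deriv_of_isOpen hs]
    refine ⟨fun ρ hρ => (h1 ρ hρ).differentiableAt.differentiableWithinAt, by simp, ?_⟩
    rw [zero_add] at c1
    exact c1.congr e1
  refine ⟨by rwa [one_add_one_eq_two] at c2, fun ρ hρ => ⟨e1 ρ hρ, ?_⟩⟩
  have hev : deriv F =ᶠ[𝓝 ρ] F1 := by
    filter_upwards [hs.mem_nhds hρ] with x hx using e1 x hx
  rw [OCalc.iter2, hev.deriv_eq, e2 ρ hρ]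

/-- The first-order field in the logarithmic variable. -/
noncomputable def fld (A : ℂ) (B : ℕ) (g : ℝ → ℂ → ℂ) (ρ : ℝ) (y : ℂ × ℂ) : ℂ × ℂ :=
  (y.2, y.2 + (ρ / 4 : ℂ) * g ρ y.1 - ((B : ℂ) + I * ρ / 4) * y.2 - I * A * ρ / 4 * y.1)

theorem fld_lip (A : ℂ) (B : ℕ) {g : ℝ → ℂ → ℂ} {L ρ P : ℝ} (hL0 : 0 ≤ L) (hρ : 0 < ρ)
    (hP : ρ ≤ P) (hL : ∀ y z, ‖g ρ y - g ρ z‖ ≤ L * ‖y - z‖) (y z : ℂ × ℂ) :
    ‖fld A B g ρ y - fld A B g ρ z‖ ≤ (1 + P * L + B + P + ‖A‖ * P) * ‖y - z‖ := by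
  have n1 : ‖y.1 - z.1‖ ≤ ‖y - z‖ := norm_fst_le (y - z)
  have n2 : ‖y.2 - z.2‖ ≤ ‖y - z‖ := norm_snd_le (y - z)
  have hP0 : 0 < P := hρ.trans_le hP
  have hd := norm_nonneg (y - z)
  have hA := norm_nonneg A
  have hρn : ‖(ρ / 4 : ℂ)‖ ≤ P := by
    rw [norm_div, Complex.norm_real, Real.norm_of_nonneg hρ.le]
    have : ‖(4 : ℂ)‖ = 4 := by simp
    rw [this]; linarith
  have e : fld A B g ρ y - fld A B g ρ z = (y.2 - z.2, (y.2 - z.2) + (ρ / 4 : ℂ) *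
      (g ρ y.1 - g ρ z.1) - ((B : ℂ) + I * (ρ / 4)) * (y.2 - z.2)
        - I * A * (ρ / 4) * (y.1 - z.1)) := by
    simp only [fld, Prod.mk_sub_mk, Prod.mk.injEq, true_and]
    ring
  rw [e, Prod.norm_mk, max_le_iff]
  have hc : 0 ≤ P * L + B + P + ‖A‖ * P := by positivity
  refine ⟨by nlinarith [mul_nonneg hc hd], ?_⟩
  have t1 : ‖(ρ / 4 : ℂ) * (g ρ y.1 - g ρ z.1)‖ ≤ P * (L * ‖y - z‖) := by
    rw [norm_mul]
    exact mul_le_mul hρn ((hL _ _).trans (mul_le_mul_of_nonneg_left n1 hL0)) (norm_nonneg _) hP0.le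
  have t2 : ‖((B : ℂ) + I * (ρ / 4)) * (y.2 - z.2)‖ ≤ (B + P) * ‖y - z‖ := by
    rw [norm_mul]
    refine mul_le_mul ((norm_add_le _ _).trans ?_) n2 (norm_nonneg _) (by positivity)
    rw [norm_mul, Complex.norm_I, one_mul, Complex.norm_natCast]
    linarith
  have t3 : ‖I * A * (ρ / 4) * (y.1 - z.1)‖ ≤ ‖A‖ * P * ‖y - z‖ := by
    rw [norm_mul, norm_mul, norm_mul, Complex.norm_I, one_mul]
    exact mul_le_mul (mul_le_mul_of_nonneg_left hρn hA) n1 (norm_nonneg _) (by positivity)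
  refine (norm_sub_le _ _).trans ?_
  have t4 := norm_sub_le ((y.2 - z.2) + (ρ / 4 : ℂ) * (g ρ y.1 - g ρ z.1))
    (((B : ℂ) + I * (ρ / 4)) * (y.2 - z.2))
  have t5 := norm_add_le (y.2 - z.2) ((ρ / 4 : ℂ) * (g ρ y.1 - g ρ z.1))
  nlinarith

theorem exists_gen (A : ℂ) (B : ℕ) {g : ℝ → ℂ → ℂ} {L : ℝ} (hL0 : 0 ≤ L)
    (hg : ContinuousOn (fun q : ℝ × ℂ => g q.1 q.2) (Ioi 0 ×ˢ univ))
    (hL : ∀ ρ : ℝ, 0 < ρ → ∀ y z, ‖g ρ y - g ρ z‖ ≤ L * ‖y - z‖) {ρ₀ : ℝ}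
    (hρ : 0 < ρ₀) (y₀ y₁ : ℂ) :
    ∃ F : ℝ → ℂ, ContDiffOn ℝ 2 F (Ioi 0) ∧ (∀ ρ : ℝ, 0 < ρ → Mop A B F ρ = g ρ (F ρ)) ∧
      F ρ₀ = y₀ ∧ deriv F ρ₀ = y₁ := by
  have hgc : Continuous fun q : ℝ × (ℂ × ℂ) => g (ρ₀ * Real.exp q.1) q.2.1 :=
    hg.comp_continuous (f := fun q : ℝ × (ℂ × ℂ) => (ρ₀ * Real.exp q.1, q.2.1)) (by fun_prop)
      fun q => ⟨mul_pos hρ (Real.exp_pos _), mem_univ _⟩
  obtain ⟨Y, hY0, hY⟩ := exists_global (v := fun t y => fld A B g (ρ₀ * Real.exp t) y)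
    (by
      simp only [fld]
      refine Continuous.prodMk (by fun_prop) ?_
      exact (((continuous_snd.comp continuous_snd).add (Continuous.mul (by fun_prop) hgc)).sub
        (by fun_prop)).sub (by fun_prop))
    (fun R => ⟨1 + ρ₀ * Real.exp R * L + B + ρ₀ * Real.exp R + ‖A‖ * (ρ₀ * Real.exp R),
      by positivity, fun s hs y z => fld_lip A B hL0 (mul_pos hρ (Real.exp_pos _))
        (mul_le_mul_of_nonneg_left (Real.exp_le_exp.2 ((le_abs_self s).trans hs)) hρ.le)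
        (hL _ (mul_pos hρ (Real.exp_pos _))) y z⟩) (y₀, ρ₀ * y₁)
  have hlog : ∀ ρ : ℝ, 0 < ρ → HasDerivAt (fun x : ℝ => Real.log x - Real.log ρ₀) ρ⁻¹ ρ :=
    fun ρ h => (Real.hasDerivAt_log h.ne').sub_const _
  have hexp : ∀ ρ : ℝ, 0 < ρ → ρ₀ * Real.exp (Real.log ρ - Real.log ρ₀) = ρ := by
    intro ρ h
    rw [Real.exp_sub, Real.exp_log h, Real.exp_log hρ]
    field_simp
  set W : ℝ → ℂ × ℂ := fun x => Y (Real.log x - Real.log ρ₀) with hWdef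
  have hW : ∀ ρ : ℝ, 0 < ρ → HasDerivAt W (ρ⁻¹ • fld A B g ρ (W ρ)) ρ := by
    intro ρ h
    have h1 := (hY (Real.log ρ - Real.log ρ₀)).scomp ρ (hlog ρ h)
    rw [hexp ρ h] at h1
    exact h1
  have hWc : ContinuousOn W (Ioi 0) := fun ρ h => (hW ρ h).continuousAt.continuousWithinAt
  have h1 : ∀ ρ ∈ Ioi (0 : ℝ), HasDerivAt (fun x => (W x).1) ((W ρ).2 / ρ) ρ := by
    intro ρ h
    have h2 : HasDerivAt (fun x => (W x).1) (ρ⁻¹ • fld A B g ρ (W ρ)).1 ρ :=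
      (ContinuousLinearMap.fst ℝ ℂ ℂ).hasFDerivAt.comp_hasDerivAt ρ (hW ρ h)
    refine h2.congr_deriv ?_
    simp only [fld, Prod.smul_mk, Complex.real_smul]
    push_cast
    ring
  have h2 : ∀ ρ ∈ Ioi (0 : ℝ), HasDerivAt (fun x : ℝ => (W x).2 / x)
      ((g ρ (W ρ).1 - (4 * (B : ℂ) + I * ρ) * ((W ρ).2 / ρ) - I * A * (W ρ).1) / (4 * ρ)) ρ := by
    intro ρ h
    have hne : (ρ : ℂ) ≠ 0 := by exact_mod_cast (ne_of_gt h)
    have h3 : HasDerivAt (fun x => (W x).2) (ρ⁻¹ • fld A B g ρ (W ρ)).2 ρ :=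
      (ContinuousLinearMap.snd ℝ ℂ ℂ).hasFDerivAt.comp_hasDerivAt ρ (hW ρ h)
    refine (h3.div (OCalc.hdo ρ) hne).congr_deriv ?_
    simp only [fld, Prod.smul_mk, Complex.real_smul]
    push_cast
    field_simp
    ring
  have h3 : ContinuousOn (fun ρ : ℝ =>
      (g ρ (W ρ).1 - (4 * (B : ℂ) + I * ρ) * ((W ρ).2 / ρ) - I * A * (W ρ).1) / (4 * ρ))
      (Ioi 0) := by
    have hne : ∀ ρ ∈ Ioi (0 : ℝ), (ρ : ℂ) ≠ 0 := fun ρ h => by exact_mod_cast (ne_of_gt h)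
    have c1 : ContinuousOn (fun ρ => g ρ (W ρ).1) (Ioi 0) :=
      hg.comp (f := fun ρ : ℝ => (ρ, (W ρ).1)) (continuousOn_id.prodMk hWc.fst)
        fun ρ h => ⟨h, mem_univ _⟩
    have c2 : ContinuousOn (fun ρ : ℝ => (W ρ).2 / ρ) (Ioi 0) :=
      hWc.snd.div Complex.continuous_ofReal.continuousOn hne
    refine ((c1.sub (ContinuousOn.mul (by fun_prop) c2)).sub
      (continuousOn_const.mul hWc.fst)).div (by fun_prop) fun ρ h => ?_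
    exact mul_ne_zero (by norm_num) (hne ρ h)
  obtain ⟨c, e⟩ := c2_of_deriv isOpen_Ioi h1 h2 h3
  have hW0 : W ρ₀ = (y₀, ρ₀ * y₁) := by simp [hWdef, hY0]
  refine ⟨fun x => (W x).1, c, fun ρ h => ?_, by simp [hW0], ?_⟩
  · have hne : (ρ : ℂ) ≠ 0 := by exact_mod_cast (ne_of_gt h)
    simp only [Mop, (e ρ h).1, (e ρ h).2]
    field_simp
    ring
  · have hne : (ρ₀ : ℂ) ≠ 0 := by exact_mod_cast (ne_of_gt hρ)
    rw [(e ρ₀ hρ).1, hW0]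
    field_simp

theorem smooth_gen {A : ℂ} {B : ℕ} {s : Set ℝ} (hs : IsOpen s) (hs' : s ⊆ Ioi 0)
    {F R : ℝ → ℂ} (hF : ContDiffOn ℝ 2 F s)
    (hR : ∀ n : ℕ, ContDiffOn ℝ n F s → ContDiffOn ℝ n R s)
    (e : ∀ ρ ∈ s, Mop A B F ρ = R ρ) : ContDiffOn ℝ ∞ F s := by
  have key : ∀ n : ℕ, ContDiffOn ℝ (n + 1 + 1) F s := by
    intro n
    induction n with
    | zero => simpa [one_add_one_eq_two] using hF
    | succ n ih =>
      have hF1 : ContDiffOn ℝ (n + 1 : ℕ) F s := ih.of_le (by push_cast; exact le_self_add)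
      have hD : ContDiffOn ℝ (n + 1 : ℕ) (deriv F) s := ih.deriv_of_isOpen hs (by push_cast; rfl)
      have hre : ContDiffOn ℝ (n + 1 : ℕ) (fun ρ : ℝ => (ρ : ℂ)) s :=
        Complex.ofRealCLM.contDiff.contDiffOn
      have hDD : ContDiffOn ℝ (n + 1 : ℕ) (deriv (deriv F)) s := by
        have h := (((hR _ hF1).sub ((contDiffOn_const (c := 4 * (B : ℂ)).add
          ((contDiffOn_const (c := I)).mul hre)).mul hD)).sub
          ((contDiffOn_const (c := I * A)).mul hF1)).mul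
          (((contDiffOn_const (c := (4 : ℂ))).mul hre).inv fun ρ hρ =>
            mul_ne_zero (by norm_num) (by exact_mod_cast (ne_of_gt (hs' hρ))))
        refine h.congr fun ρ hρ => ?_
        rw [← OCalc.iter2, d2_eq (A := A) (B := B) (hs' hρ), e ρ hρ, div_eq_mul_inv]
        rfl
      rw [contDiffOn_succ_iff_deriv_of_isOpen hs]
      refine ⟨hF.differentiableOn (by norm_num), by simp, ?_⟩
      rw [contDiffOn_succ_iff_deriv_of_isOpen hs]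
      exact ⟨hD.differentiableOn (by simp), by simp, hDD⟩
  exact contDiffOn_infty.2 fun n => (key n).of_le (by rw [add_assoc]; exact le_self_add)

theorem contDiffOn_nl {n : ℕ} (m : ℕ) {s : Set ℝ} {F : ℝ → ℂ} (hF : ContDiffOn ℝ n F s) :
    ContDiffOn ℝ n (fun ρ => (‖F ρ‖ : ℂ) ^ (2 * m) * F ρ) s := by
  have hc : ContDiffOn ℝ n (fun ρ => conj (F ρ)) s :=
    Complex.conjCLE.contDiff.comp_contDiffOn hF
  refine (((hF.mul hc).pow m).mul hF).congr fun ρ _ => ?_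
  rw [Complex.mul_conj, pow_mul, Complex.normSq_eq_norm_sq]
  push_cast
  rfl

end Vale.Agent.P139Z.OBase
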