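import Vale.Agent.P139Z.OCalc.Mop

/-! Global solutions of equations with a Lipschitz field. -/

open Set Filter Topology MeasureTheory Complex
open scoped NNReal ENNReal ComplexConjugate ContDiff

namespace Vale.Agent.P139Z.OBase

variable {E : Type*} [NormedAddCommGroup E] [NormedSpace ℝ E] [CompleteSpace E]

/-- Picard iterates. -/
noncomputable def pic (v : ℝ → E → E) (x : E) : ℕ → ℝ → E
  | 0 => fun _ => x
  | n + 1 => fun t => x + ∫ s in (0 : ℝ)..t, v s (pic v x n s)

theorem pic_cont {v : ℝ → E → E} (hv : Continuous fun q : ℝ × E => v q.1 q.2) (x : E) (n : ℕ) :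
    Continuous (pic v x n) := by
  induction n with
  | zero => exact continuous_const
  | succ n ih =>
    have h : Continuous fun s => v s (pic v x n s) := hv.comp (continuous_id.prodMk ih)
    exact continuous_iff_continuousAt.2 fun t =>
      ((h.integral_hasStrictDerivAt 0 t).hasDerivAt.const_add x).continuousAt

theorem pic_field {v : ℝ → E → E} (hv : Continuous fun q : ℝ × E => v q.1 q.2) (x : E) (n : ℕ) :
    Continuous fun s => v s (pic v x n s) :=
  hv.comp (continuous_id.prodMk (pic_cont hv x n))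

theorem pic_deriv {v : ℝ → E → E} (hv : Continuous fun q : ℝ × E => v q.1 q.2) (x : E) (n : ℕ)
    (t : ℝ) : HasDerivAt (pic v x (n + 1)) (v t (pic v x n t)) t :=
  ((pic_field hv x n).integral_hasStrictDerivAt 0 t).hasDerivAt.const_add x

omit [CompleteSpace E] in
theorem pic_zero (v : ℝ → E → E) (x : E) (n : ℕ) : pic v x n 0 = x := by
  cases n with
  | zero => rfl
  | succ n => simp [pic]

theorem pic_bound {v : ℝ → E → E} (hv : Continuous fun q : ℝ × E => v q.1 q.2) (x : E)
    {R K M : ℝ} (hK : 0 ≤ K) (hM : ∀ s, |s| ≤ R → ‖v s x‖ ≤ M)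
    (hL : ∀ s, |s| ≤ R → ∀ y z, ‖v s y - v s z‖ ≤ K * ‖y - z‖) (n : ℕ) :
    ∀ t, |t| ≤ R → ‖pic v x (n + 1) t - pic v x n t‖ ≤ (K * |t|) ^ n / n.factorial * (M * R) := by
  have hs' : ∀ t s : ℝ, s ∈ uIoc 0 t → |s| ≤ |t| := by
    intro t s hs
    have h2 := abs_sub_left_of_mem_uIcc (uIoc_subset_uIcc hs)
    simpa using h2
  induction n with
  | zero =>
    intro t ht
    have hM0 : 0 ≤ M := (norm_nonneg _).trans (hM t ht)
    have h1 : ‖∫ s in (0 : ℝ)..t, v s x‖ ≤ M * |t - 0| :=
      intervalIntegral.norm_integral_le_of_norm_le_const fun s hs => hM s ((hs' t s hs).trans ht)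
    simp only [pic, add_sub_cancel_left, pow_zero, Nat.factorial_zero, Nat.cast_one, div_one,
      one_mul]
    refine h1.trans ?_
    rw [sub_zero]
    exact mul_le_mul_of_nonneg_left ht hM0
  | succ n ih =>
    intro t ht
    have e : pic v x (n + 1 + 1) t - pic v x (n + 1) t
        = ∫ s in (0 : ℝ)..t, (v s (pic v x (n + 1) s) - v s (pic v x n s)) := by
      rw [intervalIntegral.integral_sub ((pic_field hv x (n + 1)).intervalIntegrable _ _)
        ((pic_field hv x n).intervalIntegrable _ _)]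
      show x + _ - (x + _) = _
      rw [add_sub_add_left_eq_sub]
    have h1 : ‖pic v x (n + 1 + 1) t - pic v x (n + 1) t‖ ≤
        ∫ s in uIoc 0 t, |s - 0| ^ n * (K ^ (n + 1) / n.factorial * (M * R)) := by
      rw [e, intervalIntegral.norm_intervalIntegral_eq]
      apply MeasureTheory.norm_integral_le_of_norm_le (Continuous.integrableOn_uIoc (by fun_prop))
      apply (MeasureTheory.ae_restrict_mem measurableSet_uIoc).mono
      intro s hs
      have h2 := (hs' t s hs).trans ht
      calc ‖v s (pic v x (n + 1) s) - v s (pic v x n s)‖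
          ≤ K * ‖pic v x (n + 1) s - pic v x n s‖ := hL s h2 _ _
        _ ≤ K * ((K * |s|) ^ n / n.factorial * (M * R)) :=
            mul_le_mul_of_nonneg_left (ih s h2) hK
        _ = _ := by rw [sub_zero]; ring
    rw [MeasureTheory.integral_mul_const, integral_pow_abs_sub_uIoc, sub_zero] at h1
    refine h1.trans (le_of_eq ?_)
    rw [Nat.factorial_succ]
    push_cast
    rw [mul_pow]
    field_simp

theorem exists_global {v : ℝ → E → E} (hv : Continuous fun q : ℝ × E => v q.1 q.2)
    (hL : ∀ R : ℝ, ∃ K : ℝ, 0 ≤ K ∧ ∀ s, |s| ≤ R → ∀ y z, ‖v s y - v s z‖ ≤ K * ‖y - z‖) (x : E) :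
    ∃ Y : ℝ → E, Y 0 = x ∧ ∀ t, HasDerivAt Y (v t (Y t)) t := by
  refine ⟨fun t => x + ∑' n, (pic v x (n + 1) t - pic v x n t), by simp [pic_zero], fun t => ?_⟩
  set Y : ℝ → E := fun t => x + ∑' n, (pic v x (n + 1) t - pic v x n t) with hY
  obtain ⟨K, hK, hL⟩ := hL (|t| + 1)
  have hc : Continuous fun s => v s x := hv.comp (continuous_id.prodMk continuous_const)
  obtain ⟨M, hM⟩ := (isCompact_Icc (a := -(|t| + 1)) (b := |t| + 1)).exists_bound_of_continuousOn
    hc.continuousOn
  have hM' : ∀ s, |s| ≤ |t| + 1 → ‖v s x‖ ≤ M := fun s hs => hM s (abs_le.1 hs)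
  have hM0 : 0 ≤ M := (norm_nonneg _).trans (hM' t (by linarith))
  have hmem : ∀ s ∈ Ioo (-(|t| + 1)) (|t| + 1), |s| ≤ |t| + 1 := fun s hs =>
    abs_le.2 ⟨hs.1.le, hs.2.le⟩
  have hsum : Summable fun n : ℕ => (K * (|t| + 1)) ^ n / n.factorial * (M * (|t| + 1)) :=
    (Real.summable_pow_div_factorial _).mul_right _
  have hu := tendstoUniformlyOn_tsum_nat (f := fun n s => pic v x (n + 1) s - pic v x n s)
    (s := Ioo (-(|t| + 1)) (|t| + 1)) hsum (fun n s hs => by
      refine (pic_bound hv x hK hM' hL n s (hmem s hs)).trans ?_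
      have := hmem s hs
      gcongr)
  have hu2 : ∀ ε : ℝ, 0 < ε → ∀ᶠ n in atTop, ∀ s ∈ Ioo (-(|t| + 1)) (|t| + 1),
      ‖Y s - pic v x n s‖ < ε := by
    intro ε hε
    filter_upwards [Metric.tendstoUniformlyOn_iff.1 hu ε hε] with n hn s hs
    have h := hn s hs
    rw [Finset.sum_range_sub (fun n => pic v x n s), dist_eq_norm] at h
    have e : Y s - pic v x n s
        = ∑' n, (pic v x (n + 1) s - pic v x n s) - (pic v x n s - pic v x 0 s) := by
      show x + _ - _ = _ - (_ - x)
      abel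
    rwa [e]
  refine hasDerivAt_of_tendstoUniformlyOn (l := atTop) (f := fun n => pic v x (n + 1))
    (f' := fun n s => v s (pic v x n s)) (g' := fun s => v s (Y s))
    (isOpen_Ioo (a := -(|t| + 1)) (b := |t| + 1)) ?_
    (Eventually.of_forall fun n s _ => pic_deriv hv x n s) ?_
    ⟨by linarith [neg_abs_le t], by linarith [le_abs_self t]⟩
  · refine Metric.tendstoUniformlyOn_iff.2 fun ε hε => ?_
    filter_upwards [hu2 (ε / (K + 1)) (by positivity)] with n hn s hs
    rw [dist_eq_norm]
    have h1 := hL s (hmem s hs) (Y s) (pic v x n s)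
    have h2 := hn s hs
    rw [lt_div_iff₀ (by positivity)] at h2
    nlinarith [norm_nonneg (Y s - pic v x n s)]
  · intro s hs
    refine (tendsto_add_atTop_iff_nat (f := fun n => pic v x n s) 1).2 ?_
    refine Metric.tendsto_nhds.2 fun ε hε => ?_
    filter_upwards [hu2 ε hε] with n hn
    rw [dist_comm, dist_eq_norm]
    exact hn s hs

end Vale.Agent.P139Z.OBase
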